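import Vale.Agent.P073.W865.Main

/-!
# P073, block PW: final forms of the winding lemma
-/

open Set Metric Topology Filter Complex

namespace P073.W865

/-- the open punctured unit disc -/
def PD : Set ℂ := {y | 0 < ‖y‖ ∧ ‖y‖ < 1}

/-- A nonvanishing continuous function on the punctured disc is `y ^ d * exp (lam y)`; the same
`d` is the winding number of short closed chains. -/
theorem exists_winding {q : ℂ → ℂ} (hq : ContinuousOn q PD) (h0 : ∀ y ∈ PD, q y ≠ 0) :
    ∃ d : ℤ, (∃ lam : ℂ → ℂ, ContinuousOn lam PD ∧ ∀ y ∈ PD, q y = y ^ d * exp (lam y)) ∧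
      ∃ g, WindsTo q d g := by
  obtain ⟨G, hG, hexp, d, hd⟩ := exists_log (p := q) hq (fun y a b => h0 y ⟨a, b⟩)
  have hwt : ∃ g, WindsTo q d g := ⟨_, windsTo_of_log hG hexp hd⟩
  refine ⟨d, ⟨fun y => G (log y) - d * log y, ?_, ?_⟩, hwt⟩
  · have hopen : IsOpen {w : ℂ | w.re < 0} := isOpen_lt continuous_re continuous_const
    have hGat : ∀ w : ℂ, w.re < 0 → ContinuousAt G w := fun w hw =>
      hG.continuousAt (hopen.mem_nhds hw)
    have hre : ∀ y ∈ PD, (log y).re < 0 := fun y hy => by
      rw [log_re]; exact Real.log_neg hy.1 hy.2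
    intro y0 hy0
    apply ContinuousAt.continuousWithinAt
    have hy0ne : y0 ≠ 0 := norm_pos_iff.1 hy0.1
    by_cases hs : y0 ∈ slitPlane
    · have hl : ContinuousAt log y0 := continuousAt_clog hs
      exact ((hGat _ (hre _ hy0)).comp hl).sub (continuousAt_const.mul hl)
    · -- use the other branch
      have hs' : -y0 ∈ slitPlane := by
        rw [mem_slitPlane_iff] at hs ⊢
        push Not at hs
        left
        have : y0.re ≠ 0 := fun hc => hy0ne (Complex.ext hc hs.2)
        rw [neg_re]
        have := lt_of_le_of_ne hs.1 this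
        linarith
      have hl : ContinuousAt (fun y => log (-y)) y0 :=
        ContinuousAt.comp (g := log) (f := fun y => -y) (continuousAt_clog hs')
          continuousAt_neg
      have hev : (fun y => G (log y) - d * log y) =ᶠ[𝓝 y0]
          fun y => G (log (-y) + Real.pi * I) - d * (log (-y) + Real.pi * I) := by
        have hA : PD ∈ 𝓝 y0 := by
          have : IsOpen PD := (isOpen_lt continuous_const continuous_norm).inter
            (isOpen_lt continuous_norm continuous_const)
          exact this.mem_nhds hy0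
        filter_upwards [hA] with y hy
        have hyne : y ≠ 0 := norm_pos_iff.1 hy.1
        have h1 : exp (log (-y) + Real.pi * I) = exp (log y) := by
          rw [exp_add, exp_pi_mul_I, exp_log (neg_ne_zero.2 hyne), exp_log hyne]; ring
        obtain ⟨k, hk⟩ := exp_eq_exp_iff_exists_int.1 h1
        rw [hk, hd _ (hre y hy) k]
        ring
      refine ContinuousAt.congr ?_ hev.symm
      have hl' : ContinuousAt (fun y => log (-y) + Real.pi * I) y0 := hl.add continuousAt_const
      have hre0 : (log (-y0) + Real.pi * I).re < 0 := by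
        simp only [add_re, log_re, norm_neg, mul_re, ofReal_re, I_re, mul_zero, ofReal_im, I_im,
          mul_one, sub_self, add_zero]
        exact Real.log_neg hy0.1 hy0.2
      have hGl : ContinuousAt (fun y => G (log (-y) + Real.pi * I)) y0 :=
        ContinuousAt.comp (g := G) (f := fun y => log (-y) + Real.pi * I) (hGat _ hre0) hl'
      exact hGl.sub (continuousAt_const.mul hl')
  · intro y hy
    have hyne : y ≠ 0 := norm_pos_iff.1 hy.1
    have hre : (log y).re < 0 := by rw [log_re]; exact Real.log_neg hy.1 hy.2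
    have h1 : q y = exp (G (log y)) := by rw [hexp _ hre, exp_log hyne]
    have h2 : y ^ d = exp (d * log y) := by
      rw [exp_int_mul, exp_log hyne]
    rw [h1, h2, ← exp_add]
    congr 1
    ring

/-- **Winding lemma, final form.** `h` is a parametrised disc in `ℂ × ℝ`, equal to `{u = 0}` near
the origin (with continuous inverse `k` there), and `u` is negative at `(0, -R)`, positive at
`(0, R)`.  If `h` meets the axis only at `h 0 = 0`, then it winds exactly once around it. -/
theorem winding_final {R : ℝ} (hR : 0 < R) {u : ℂ × ℝ → ℝ} (hu : ContinuousOn u (closedBall 0 R))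
    {h : ℂ → ℂ × ℝ} {k : ℂ × ℝ → ℂ} (hh : ContinuousOn h PD) (hax : ∀ y ∈ PD, (h y).1 ≠ 0)
    (h0 : h 0 = 0) (hlow : u (0, -R) < 0) (hhigh : 0 < u (0, R))
    (hk : ContinuousOn k {x | x ∈ closedBall 0 R ∧ u x = 0})
    (hk1 : ∀ x ∈ closedBall (0 : ℂ × ℝ) R, u x = 0 → ‖k x‖ < 1)
    (hk2 : ∀ x ∈ closedBall (0 : ℂ × ℝ) R, u x = 0 → h (k x) = x) :
    ∃ d : ℤ, (d = 1 ∨ d = -1) ∧
      (∃ lam : ℂ → ℂ, ContinuousOn lam PD ∧ ∀ y ∈ PD, (h y).1 = y ^ d * exp (lam y)) ∧
      ∃ g, WindsTo (fun y => (h y).1) d g := by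
  obtain ⟨d, h1, g, hg⟩ := exists_winding (q := fun y => (h y).1)
    (continuous_fst.comp_continuousOn hh) hax
  exact ⟨d, winding hR hu h0 hlow hhigh hk hk1 hk2 hg, h1, g, hg⟩

end P073.W865
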