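import Vale.Agent.P073.W865.Final
import Vale.Agent.P073.PW86.LM
import Vale.Agent.P073.St

/-!
# P073, block PW: the winding lemma for a coordinate plane in the target and an axis of arbitrary
direction in the domain
-/

open Set Metric Topology Filter Complex

namespace P073.W865

open Vale.Agent.P073.St (V IsInv)
open P073.PW86 (pt continuous_pt pt_zero)

/-- the chart of the coordinate plane through `y₀` -/
noncomputable def ch (y0 : V) (i j : Fin 3) (y : V) : ℂ := ⟨y i - y0 i, y j - y0 j⟩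

theorem continuous_ch (y0 : V) (i j : Fin 3) : Continuous (ch y0 i j) := by
  have : ch y0 i j = fun x => ((x i - y0 i : ℝ) : ℂ) + ((x j - y0 j : ℝ) : ℂ) * I := by
    funext x
    apply Complex.ext <;> simp [ch]
  rw [this]
  fun_prop

theorem ch_pt {y0 : V} {i j : Fin 3} (hij : i ≠ j) (v : ℂ) : ch y0 i j (pt y0 i j v) = v := by
  apply Complex.ext
  · simp [ch, pt]
  · simp [ch, pt, hij.symm]

theorem pt_ch {y0 : V} {i j l : Fin 3} (hij : i ≠ j) (hli : l ≠ i) (hlj : l ≠ j) {y : V}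
    (hy : y l = y0 l) : pt y0 i j (ch y0 i j y) = y := by
  funext c
  have hc : c = i ∨ c = j ∨ c = l := by
    fin_cases i <;> fin_cases j <;> fin_cases l <;> fin_cases c <;> simp_all
  simp only [pt, ch]
  rcases hc with rfl | rfl | rfl
  · simp
  · rw [if_neg hij.symm, if_pos rfl]; ring
  · rw [if_neg hli, if_neg hlj]; exact hy.symm

theorem pt_l {y0 : V} {i j l : Fin 3} (hli : l ≠ i) (hlj : l ≠ j) (v : ℂ) :
    pt y0 i j v l = y0 l := by
  simp [pt, hli, hlj]

/-- **Winding lemma for a coordinate plane.**  `f` is a homeomorphism of `Ω` onto `Λ` with inverse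
`h`; the coordinate `l` of `f` is smaller than at `x₀` on one side and larger on the other side of
`x₀` on the axis `x₀ + T⁻¹ (0, t)`.  Then `h`, restricted to the plane `y l = f x₀ l`, winds exactly
once around the axis. -/
theorem winding_plane {Ω Λ : Set V} {f h : V → V} (hΩ : IsOpen Ω) (hΛ : IsOpen Λ)
    (hinv : IsInv Ω Λ f h) (hf : ContinuousOn f Ω) (hh : ContinuousOn h Λ) {x0 : V} (hx0 : x0 ∈ Ω)
    {i j l : Fin 3} (hij : i ≠ j) (hli : l ≠ i) (hlj : l ≠ j) (T : V ≃L[ℝ] ℂ × ℝ) {τ : ℝ}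
    (hτ : 0 < τ) {σ : ℝ} (hσ : σ = 1 ∨ σ = -1)
    (hlow : ∀ t ∈ Ioc 0 τ, σ * (f (x0 + T.symm (0, -t)) l - f x0 l) < 0)
    (hhigh : ∀ t ∈ Ioc 0 τ, 0 < σ * (f (x0 + T.symm (0, t)) l - f x0 l)) :
    ∃ R > 0, ∃ d : ℤ, (d = 1 ∨ d = -1) ∧ ∃ lam : ℂ → ℂ,
      ContinuousOn lam {v | v ≠ 0 ∧ ‖v‖ ≤ R} ∧ (∀ v, ‖v‖ ≤ R → pt (f x0) i j v ∈ Λ) ∧
      ∀ v, v ≠ 0 → ‖v‖ ≤ R →
        (T (h (pt (f x0) i j v) - x0)).1 = v ^ d * exp (lam v) := by
  set y0 : V := f x0 with hy0
  have hy0Λ : y0 ∈ Λ := (hinv.1 x0 hx0).1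
  have hhy0 : h y0 = x0 := (hinv.1 x0 hx0).2
  -- Step 1
  have hcont : ContinuousAt (fun v => T (h (pt y0 i j v) - x0)) (0 : ℂ) := by
    have h1 : ContinuousAt h (pt y0 i j 0) := by
      rw [pt_zero]; exact hh.continuousAt (hΛ.mem_nhds hy0Λ)
    have h2 : ContinuousAt (fun v => h (pt y0 i j v)) (0 : ℂ) :=
      ContinuousAt.comp (g := h) (f := fun v => pt y0 i j v) h1
        (continuous_pt y0 i j).continuousAt
    exact T.continuous.continuousAt.comp (h2.sub continuousAt_const)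
  obtain ⟨R2, hR2, hR2Λ, hR2τ⟩ : ∃ R2 > 0, (∀ v : ℂ, ‖v‖ ≤ R2 → pt y0 i j v ∈ Λ) ∧
      ∀ v : ℂ, ‖v‖ ≤ R2 → ‖T (h (pt y0 i j v) - x0)‖ < τ := by
    have e1 : ∀ᶠ v : ℂ in 𝓝 0, pt y0 i j v ∈ Λ :=
      (continuous_pt y0 i j).continuousAt.eventually (by
        rw [pt_zero]; exact hΛ.mem_nhds hy0Λ)
    have e2 : ∀ᶠ v : ℂ in 𝓝 0, ‖T (h (pt y0 i j v) - x0)‖ < τ := by
      have h3 : Tendsto (fun v => ‖T (h (pt y0 i j v) - x0)‖) (𝓝 (0 : ℂ)) (𝓝 0) := by
        have h4 := hcont.norm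
        have h5 : ‖T (h (pt y0 i j 0) - x0)‖ = 0 := by rw [pt_zero, hhy0]; simp
        have h6 : Tendsto (fun v => ‖T (h (pt y0 i j v) - x0)‖) (𝓝 (0 : ℂ))
            (𝓝 ‖T (h (pt y0 i j 0) - x0)‖) := h4
        rwa [h5] at h6
      exact h3.eventually (gt_mem_nhds hτ)
    obtain ⟨r, hr, hr'⟩ := Metric.eventually_nhds_iff.1 (e1.and e2)
    refine ⟨r / 2, by positivity, fun v hv => (hr' ?_).1, fun v hv => (hr' ?_).2⟩ <;>
      · rw [dist_zero_right]; linarith
  -- Step 2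
  have hne : ∀ v : ℂ, v ≠ 0 → ‖v‖ ≤ R2 → (T (h (pt y0 i j v) - x0)).1 ≠ 0 := by
    intro v hv hvR hc
    set q : ℂ × ℝ := T (h (pt y0 i j v) - x0) with hq
    have hq1 : q = (0, q.2) := Prod.ext hc rfl
    have hx : h (pt y0 i j v) = x0 + T.symm (0, q.2) := by
      rw [← hq1, hq, ContinuousLinearEquiv.symm_apply_apply]; abel
    have hfl : f (x0 + T.symm (0, q.2)) l = y0 l := by
      rw [← hx, (hinv.2 _ (hR2Λ v hvR)).2, pt_l hli hlj]
    have hqτ : |q.2| < τ := by
      have := hR2τ v hvR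
      exact (norm_snd_le q).trans_lt this
    rcases lt_trichotomy q.2 0 with h1 | h1 | h1
    · have := hlow (-q.2) ⟨by linarith, by rw [abs_of_neg h1] at hqτ; exact hqτ.le⟩
      rw [neg_neg, hfl, sub_self, mul_zero] at this
      exact lt_irrefl _ this
    · rw [h1] at hx
      have h2 : h (pt y0 i j v) = x0 := by
        rw [hx]
        have : T.symm ((0 : ℂ), (0 : ℝ)) = 0 := map_zero T.symm
        rw [this, add_zero]
      have h3 : pt y0 i j v = y0 := by rw [← (hinv.2 _ (hR2Λ v hvR)).2, h2]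
      apply hv
      rw [← ch_pt (y0 := y0) hij v, h3]
      apply Complex.ext <;> simp [ch]
    · have := hhigh q.2 ⟨h1, by rw [abs_of_pos h1] at hqτ; exact hqτ.le⟩
      rw [hfl, sub_self, mul_zero] at this
      exact lt_irrefl _ this
  -- Step 3
  have hR2c : ((R2 : ℝ) : ℂ) ≠ 0 := by exact_mod_cast hR2.ne'
  set H : ℂ → ℂ × ℝ := fun w => T (h (pt y0 i j (R2 * w)) - x0) with hH
  have hHc : ContinuousOn H PD := by
    apply T.continuous.comp_continuousOn
    apply ContinuousOn.sub _ continuousOn_const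
    apply hh.comp ((continuous_pt y0 i j).comp (continuous_const.mul continuous_id)).continuousOn
    intro w hw
    apply hR2Λ
    show ‖((R2 : ℝ) : ℂ) * w‖ ≤ R2
    rw [norm_mul, norm_real, Real.norm_of_nonneg hR2.le]
    nlinarith [hw.2]
  have hHax : ∀ w ∈ PD, (H w).1 ≠ 0 := by
    intro w hw
    apply hne
    · exact mul_ne_zero hR2c (norm_pos_iff.1 hw.1)
    · rw [norm_mul, norm_real, Real.norm_of_nonneg hR2.le]
      nlinarith [hw.2]
  have hH0 : H 0 = 0 := by
    simp only [hH, mul_zero, pt_zero, hhy0, sub_self, map_zero]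
  -- Step 4
  let A : ℂ × ℝ → V := fun x => x0 + T.symm x
  have hA : Continuous A := continuous_const.add T.symm.continuous
  have hA0 : A 0 = x0 := by simp [A]
  obtain ⟨R1, hR1, hR1τ, hR1Ω, hR1k⟩ : ∃ R1 > 0, R1 ≤ τ ∧ (∀ x ∈ closedBall (0 : ℂ × ℝ) R1, A x ∈ Ω) ∧
      ∀ x ∈ closedBall (0 : ℂ × ℝ) R1, ‖ch y0 i j (f (A x))‖ < R2 := by
    have e1 : ∀ᶠ x in 𝓝 (0 : ℂ × ℝ), A x ∈ Ω :=
      hA.continuousAt.eventually (by rw [hA0]; exact hΩ.mem_nhds hx0)
    have e2 : ∀ᶠ x in 𝓝 (0 : ℂ × ℝ), ‖ch y0 i j (f (A x))‖ < R2 := by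
      have h1 : ContinuousAt f (A 0) := by rw [hA0]; exact hf.continuousAt (hΩ.mem_nhds hx0)
      have h2 : ContinuousAt (fun x => f (A x)) (0 : ℂ × ℝ) :=
        ContinuousAt.comp (g := f) (f := A) h1 hA.continuousAt
      have h3 : ContinuousAt (fun x => ‖ch y0 i j (f (A x))‖) (0 : ℂ × ℝ) :=
        ((continuous_ch y0 i j).continuousAt.comp h2).norm
      have h5 : ‖ch y0 i j (f (A 0))‖ = 0 := by
        rw [hA0, ← hy0, norm_eq_zero]
        apply Complex.ext <;> simp [ch]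
      have h6 : Tendsto (fun x => ‖ch y0 i j (f (A x))‖) (𝓝 (0 : ℂ × ℝ))
          (𝓝 ‖ch y0 i j (f (A 0))‖) := h3
      rw [h5] at h6
      exact h6.eventually (gt_mem_nhds hR2)
    obtain ⟨r, hr, hr'⟩ := Metric.eventually_nhds_iff.1 (e1.and e2)
    refine ⟨min τ (r / 2), by positivity, min_le_left _ _, fun x hx => (hr' ?_).1,
      fun x hx => (hr' ?_).2⟩ <;>
      · have := (mem_closedBall.1 hx).trans (min_le_right _ _)
        linarith
  set u : ℂ × ℝ → ℝ := fun x => σ * (f (A x) l - y0 l) with hu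
  have hfA : ContinuousOn (fun x => f (A x)) (closedBall (0 : ℂ × ℝ) R1) :=
    hf.comp hA.continuousOn hR1Ω
  have huc : ContinuousOn u (closedBall (0 : ℂ × ℝ) R1) := by
    apply continuousOn_const.mul
    exact ((continuous_apply l).comp_continuousOn hfA).sub continuousOn_const
  have hu0 : ∀ x, u x = 0 → f (A x) l = y0 l := by
    intro x hx
    have hσ0 : σ ≠ 0 := by rcases hσ with rfl | rfl <;> norm_num
    have := (mul_eq_zero.1 hx).resolve_left hσ0
    linarith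
  obtain ⟨d, hd, ⟨lam, hlam, hlam'⟩, -⟩ := winding_final hR1 (u := u) huc (h := H)
    (k := fun x => ch y0 i j (f (A x)) / R2) hHc hHax hH0
    (hlow R1 ⟨hR1, hR1τ⟩) (hhigh R1 ⟨hR1, hR1τ⟩)
    (by
      apply ContinuousOn.div_const
      apply (continuous_ch y0 i j).comp_continuousOn
      exact hfA.mono fun x hx => hx.1)
    (by
      intro x hx _
      rw [norm_div, norm_real, Real.norm_of_nonneg hR2.le, div_lt_one hR2]
      exact hR1k x hx)
    (by
      intro x hx hux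
      have h1 : ((R2 : ℝ) : ℂ) * (ch y0 i j (f (A x)) / R2) = ch y0 i j (f (A x)) := by
        field_simp
      simp only [hH]
      rw [h1, pt_ch hij hli hlj (hu0 x hux), (hinv.1 _ (hR1Ω x hx)).2]
      simp [A])
  refine ⟨R2 / 2, by positivity, d, hd, fun v => lam (v / R2) - d * Real.log R2, ?_,
    fun v hv => hR2Λ v (by linarith), ?_⟩
  · apply ContinuousOn.sub _ continuousOn_const
    apply hlam.comp (continuous_id.div_const _).continuousOn
    intro v hv
    have hv0 : 0 < ‖v‖ := norm_pos_iff.2 hv.1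
    constructor
    · simp only [id, norm_div, norm_real, Real.norm_of_nonneg hR2.le]
      positivity
    · simp only [id, norm_div, norm_real, Real.norm_of_nonneg hR2.le]
      rw [div_lt_one hR2]
      have := hv.2
      linarith
  · intro v hv hvR
    have hv0 : 0 < ‖v‖ := norm_pos_iff.2 hv
    have h1 := hlam' (v / R2) ⟨by
        rw [norm_div, norm_real, Real.norm_of_nonneg hR2.le]; positivity, by
        rw [norm_div, norm_real, Real.norm_of_nonneg hR2.le, div_lt_one hR2]; linarith⟩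
    have h2 : ((R2 : ℝ) : ℂ) * (v / R2) = v := by field_simp
    simp only [hH] at h1
    rw [h2] at h1
    rw [h1, div_zpow, exp_sub]
    have h3 : exp ((d : ℂ) * ((Real.log R2 : ℝ) : ℂ)) = (R2 : ℂ) ^ d := by
      rw [exp_int_mul, ← ofReal_exp, Real.exp_log hR2]
    rw [h3]
    ring

end P073.W865
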