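import Vale.Agent.P073.W865.Rows

/-!
# P073, block PW: the winding lemma (W)

A topological disc `h` in `ℂ × ℝ` inside `{u = 0}`, filling `{u = 0}` near the origin, where `u`
changes sign along the axis exactly at the origin: `h` winds exactly once around the axis.
-/

open Set Metric Topology Filter Complex

namespace P073.W865

/-- grid point on the cylinder of radius `s` -/
noncomputable def gp (s R : ℝ) (n m : ℕ) (i j : ℕ) : ℂ × ℝ :=
  (s * exp (I * ((2 * Real.pi * i / n : ℝ) : ℂ)), -R + 2 * R * j / m)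

theorem gp_norm {s : ℝ} (hs : 0 ≤ s) (R : ℝ) (n m i j : ℕ) : ‖(gp s R n m i j).1‖ = s := by
  simp only [gp]
  rw [norm_mul, mul_comm I, norm_exp_ofReal_mul_I, mul_one, norm_real, Real.norm_of_nonneg hs]

theorem gp_per (s R : ℝ) {n : ℕ} (hn : n ≠ 0) (m j : ℕ) : gp s R n m n j = gp s R n m 0 j := by
  have : (n : ℝ) ≠ 0 := by exact_mod_cast hn
  simp only [gp]
  congr 2
  have h1 : (2 * Real.pi * n / n : ℝ) = 2 * Real.pi := by field_simp
  rw [h1]
  have h2 : I * ((2 * Real.pi : ℝ) : ℂ) = 2 * Real.pi * I := by push_cast; ring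
  rw [h2, exp_two_pi_mul_I]
  simp

theorem gp_step_h (s R : ℝ) (hs : 0 < s) {n : ℕ} (hn : n ≠ 0) (m i j : ℕ) :
    (gp s R n m (i + 1) j).1 / (gp s R n m i j).1 = exp (I * ((2 * Real.pi / n : ℝ) : ℂ)) := by
  have hn' : (n : ℝ) ≠ 0 := by exact_mod_cast hn
  have hs' : (s : ℂ) ≠ 0 := by exact_mod_cast hs.ne'
  simp only [gp]
  rw [mul_div_mul_left _ _ hs', ← exp_sub]
  congr 1
  rw [← mul_sub, ← ofReal_sub]
  congr 2
  push_cast
  field_simp
  ring

theorem gp_dist_h (s R : ℝ) (hs : 0 < s) {n : ℕ} (hn : n ≠ 0) (m i j : ℕ) :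
    ‖(gp s R n m (i + 1) j).1 - (gp s R n m i j).1‖ ≤ s * (2 * Real.pi / n) := by
  have hne : (gp s R n m i j).1 ≠ 0 := by
    rw [← norm_pos_iff, gp_norm hs.le]; exact hs
  have h1 : (gp s R n m (i + 1) j).1 - (gp s R n m i j).1 =
      (gp s R n m i j).1 * ((gp s R n m (i + 1) j).1 / (gp s R n m i j).1 - 1) := by
    field_simp
  rw [h1, gp_step_h s R hs hn, norm_mul, gp_norm hs.le]
  refine mul_le_mul_of_nonneg_left ?_ hs.le
  refine (Real.norm_exp_I_mul_ofReal_sub_one_le).trans ?_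
  rw [Real.norm_of_nonneg (by positivity)]

theorem gp_arg (s R : ℝ) (hs : 0 < s) {n : ℕ} (hn : 2 ≤ n) (m i j : ℕ) :
    arg ((gp s R n m (i + 1) j).1 / (gp s R n m i j).1) = 2 * Real.pi / n := by
  have hpi := Real.pi_pos
  have hn' : (2 : ℝ) ≤ n := by exact_mod_cast hn
  rw [gp_step_h s R hs (by omega), ← log_im, mul_comm, log_exp]
  · simp
  · have h3 : ((((2 * Real.pi / n : ℝ) : ℂ)) * I).im = 2 * Real.pi / n := by simp
    rw [h3]
    have : (0 : ℝ) ≤ 2 * Real.pi / n := by positivity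
    linarith
  · have h3 : ((((2 * Real.pi / n : ℝ) : ℂ)) * I).im = 2 * Real.pi / n := by simp
    rw [h3, div_le_iff₀ (by linarith)]
    nlinarith

/-- **Winding lemma (W).** -/
theorem winding {R : ℝ} (hR : 0 < R) {u : ℂ × ℝ → ℝ} (hu : ContinuousOn u (closedBall 0 R))
    {h : ℂ → ℂ × ℝ} {k : ℂ × ℝ → ℂ}
    (h0 : h 0 = 0) (hlow : u (0, -R) < 0) (hhigh : 0 < u (0, R))
    (hk : ContinuousOn k {x | x ∈ closedBall 0 R ∧ u x = 0})
    (hk1 : ∀ x ∈ closedBall (0 : ℂ × ℝ) R, u x = 0 → ‖k x‖ < 1)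
    (hk2 : ∀ x ∈ closedBall (0 : ℂ × ℝ) R, u x = 0 → h (k x) = x)
    {d : ℤ} {g : ℂ → ℝ} (hd : WindsTo (fun y => (h y).1) d g) : d = 1 ∨ d = -1 := by
  have hpi := Real.pi_pos
  have hBR : ∀ x : ℂ × ℝ, x ∈ closedBall (0 : ℂ × ℝ) R ↔ ‖x.1‖ ≤ R ∧ |x.2| ≤ R := by
    intro x
    rw [mem_closedBall_zero_iff, Prod.norm_def, max_le_iff, Real.norm_eq_abs]
  -- the radius of the cylinder
  obtain ⟨s, hs, hsR, hslow, hshigh⟩ : ∃ s > 0, s ≤ R ∧ (∀ c : ℂ, ‖c‖ ≤ s → u (c, -R) < 0) ∧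
      ∀ c : ℂ, ‖c‖ ≤ s → 0 < u (c, R) := by
    have e1 : (0, -R) ∈ closedBall (0 : ℂ × ℝ) R := (hBR _).2 ⟨by simpa using hR.le, by simp [abs_of_pos hR]⟩
    have e2 : (0, R) ∈ closedBall (0 : ℂ × ℝ) R := (hBR _).2 ⟨by simpa using hR.le, by simp [abs_of_pos hR]⟩
    have c1 := hu _ e1
    have c2 := hu _ e2
    rw [Metric.continuousWithinAt_iff] at c1 c2
    obtain ⟨ρ1, hρ1, H1⟩ := c1 (-u (0, -R)) (by linarith)
    obtain ⟨ρ2, hρ2, H2⟩ := c2 (u (0, R)) hhigh
    refine ⟨min R (min (ρ1 / 2) (ρ2 / 2)), by positivity, min_le_left _ _, fun c hc => ?_, fun c hc => ?_⟩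
    · have hc1 : ‖c‖ ≤ R := hc.trans (min_le_left _ _)
      have hc2 : ‖c‖ ≤ ρ1 / 2 := hc.trans ((min_le_right _ _).trans (min_le_left _ _))
      have := H1 (x := (c, -R)) ((hBR _).2 ⟨hc1, by simp [abs_of_pos hR]⟩)
        (by rw [Prod.dist_eq]; simp [dist_zero_right]; linarith)
      rw [Real.dist_eq, abs_lt] at this
      linarith [this.2]
    · have hc1 : ‖c‖ ≤ R := hc.trans (min_le_left _ _)
      have hc2 : ‖c‖ ≤ ρ2 / 2 := hc.trans ((min_le_right _ _).trans (min_le_right _ _))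
      have := H2 (x := (c, R)) ((hBR _).2 ⟨hc1, by simp [abs_of_pos hR]⟩)
        (by rw [Prod.dist_eq]; simp [dist_zero_right]; linarith)
      rw [Real.dist_eq, abs_lt] at this
      linarith [this.1]
  -- lateral surface
  let L : Set (ℂ × ℝ) := {x | ‖x.1‖ = s ∧ |x.2| ≤ R}
  have hLB : L ⊆ closedBall (0 : ℂ × ℝ) R := fun x hx => (hBR x).2 ⟨hx.1.le.trans hsR, hx.2⟩
  have hLcl : IsClosed L := by
    have a1 : IsClosed {x : ℂ × ℝ | ‖x.1‖ = s} := isClosed_eq (by fun_prop) continuous_const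
    have a2 : IsClosed {x : ℂ × ℝ | |x.2| ≤ R} := isClosed_le (by fun_prop) continuous_const
    exact a1.inter a2
  have hLc : IsCompact L := (isCompact_closedBall (0 : ℂ × ℝ) R).of_isClosed_subset hLcl hLB
  have huL : ContinuousOn u L := hu.mono hLB
  let Z : Set (ℂ × ℝ) := L ∩ u ⁻¹' {0}
  have hZcl : IsClosed Z := huL.preimage_isClosed_of_isClosed hLcl isClosed_singleton
  have hZc : IsCompact Z := hLc.of_isClosed_subset hZcl inter_subset_left
  have hZs : Z ⊆ {x | x ∈ closedBall (0 : ℂ × ℝ) R ∧ u x = 0} := fun x hx => ⟨hLB hx.1, hx.2⟩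
  have hkZ : ContinuousOn k Z := hk.mono hZs
  have hZne : ∀ x ∈ Z, x.1 ≠ 0 := fun x hx => by rw [← norm_pos_iff, hx.1.1]; exact hs
  obtain ⟨r₁, hr₁, hr₁'⟩ : ∃ r₁, 0 < r₁ ∧ ∀ x ∈ Z, r₁ ≤ ‖k x‖ := by
    refine hZc.exists_forall_le' hkZ.norm (fun x hx => norm_pos_iff.2 fun hc => ?_)
    have := hk2 x (hLB hx.1) hx.2
    rw [hc, h0] at this
    exact hZne x hx (by rw [← this]; rfl)
  obtain ⟨r₂, hr₂, hr₂'⟩ : ∃ r₂, r₂ < 1 ∧ ∀ x ∈ Z, ‖k x‖ ≤ r₂ := by
    obtain ⟨a, ha, ha'⟩ := hZc.exists_forall_le' (f := fun x => 1 - ‖k x‖) (a := 0)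
      (continuousOn_const.sub hkZ.norm) (fun x hx => by
        have := hk1 x (hLB hx.1) hx.2
        linarith)
    exact ⟨1 - a, by linarith, fun x hx => by have := ha' x hx; linarith⟩
  obtain ⟨δ, hδ, hδ'⟩ := hd r₁ hr₁ r₂ hr₂
  obtain ⟨δ1, hδ1, hδ1'⟩ := Metric.uniformContinuousOn_iff.1
    (hZc.uniformContinuousOn_of_continuous hkZ) δ hδ
  set ε : ℝ := min (δ1 / 4) (s / 8) with hε
  have hεpos : 0 < ε := lt_min (by positivity) (by positivity)
  -- points with small `|u|` are near `Z`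
  obtain ⟨κ, hκ, hκ'⟩ : ∃ κ, 0 < κ ∧ ∀ x ∈ L, |u x| < κ → ∃ z ∈ Z, dist x z < ε := by
    let C : Set (ℂ × ℝ) := L ∩ {x | ∀ z ∈ Z, ε ≤ dist x z}
    have hC : IsClosed C := by
      refine hLcl.inter ?_
      have : {x : ℂ × ℝ | ∀ z ∈ Z, ε ≤ dist x z} = ⋂ z ∈ Z, {x | ε ≤ dist x z} := by
        ext x; simp
      rw [this]
      exact isClosed_biInter fun z _ => isClosed_le continuous_const (by fun_prop)
    obtain ⟨κ, hκ, hκ'⟩ := (hLc.of_isClosed_subset hC inter_subset_left).exists_forall_le'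
      (f := fun x => |u x|) (a := 0) ((huL.mono inter_subset_left).abs) (fun x hx => by
        refine abs_pos.2 fun hc => ?_
        have := hx.2 x ⟨hx.1, hc⟩
        rw [dist_self] at this
        linarith)
    refine ⟨κ, hκ, fun x hx hux => ?_⟩
    by_contra hc
    push Not at hc
    exact absurd hux (not_lt.2 (hκ' x ⟨hx, hc⟩))
  obtain ⟨μ1, hμ1, hμ1'⟩ := Metric.uniformContinuousOn_iff.1
    (hLc.uniformContinuousOn_of_continuous huL) κ hκ
  set μ : ℝ := min μ1 ε with hμ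
  have hμpos : 0 < μ := lt_min hμ1 hεpos
  -- choice of nearby zeros
  choose! zf hzf using hκ'
  let y : ℂ × ℝ → ℂ := fun x => k (zf x)
  let G : ℂ × ℝ → ℝ := fun x => d * arg (y x) + g (y x) + arg (x.1 / (zf x).1)
  let ω : ℂ × ℝ → ℂ × ℝ → ℝ := fun x x' => arg (x'.1 / x.1)
  have hrel : ∀ x ∈ L, ∀ x' ∈ L, |u x| < κ → |u x'| < κ → dist x x' < μ →
      ∃ q : ℤ, ω x x' = G x' - G x + (2 * Real.pi * d) * q := by
    intro x hx x' hx' hux hux' hxx
    obtain ⟨hz, hxz⟩ := hzf x hx hux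
    obtain ⟨hz', hxz'⟩ := hzf x' hx' hux'
    have hnx : ‖x.1‖ = s := hx.1
    have hnx' : ‖x'.1‖ = s := hx'.1
    have hnz : ‖(zf x).1‖ = s := hz.1.1
    have hnz' : ‖(zf x').1‖ = s := hz'.1.1
    have nz : ∀ w : ℂ, ‖w‖ = s → w ≠ 0 := fun w hw => by rw [← norm_pos_iff, hw]; exact hs
    have hε1 : ε ≤ s / 8 := min_le_right _ _
    have hε2 : ε ≤ δ1 / 4 := min_le_left _ _
    have hμε : μ ≤ ε := min_le_right _ _
    have d1 : ∀ a b : ℂ × ℝ, ‖b.1 - a.1‖ ≤ dist a b := fun a b => by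
      rw [dist_comm, dist_eq_norm, Prod.norm_def]
      exact le_max_left _ _
    have hzz : dist (zf x) (zf x') < 3 * ε := by
      have t1 := dist_triangle (zf x) x (zf x')
      have t2 := dist_triangle x x' (zf x')
      rw [dist_comm (zf x) x] at t1
      linarith
    have A1 : |arg (x'.1 / x.1)| < Real.pi / 3 :=
      abs_arg_div_lt (nz _ hnx) (by rw [hnx]; linarith [d1 x x'])
    have A2 : |arg ((zf x').1 / (zf x).1)| < Real.pi / 3 :=
      abs_arg_div_lt (nz _ hnz) (by rw [hnz]; linarith [d1 (zf x) (zf x')])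
    have A3 : |arg (x'.1 / (zf x').1)| < Real.pi / 3 :=
      abs_arg_div_lt (nz _ hnz') (by
        rw [hnz']; have := d1 (zf x') x'; rw [dist_comm] at this; linarith)
    have A4 : |arg (x.1 / (zf x).1)| < Real.pi / 3 :=
      abs_arg_div_lt (nz _ hnz) (by
        rw [hnz]; have := d1 (zf x) x; rw [dist_comm] at this; linarith)
    have hstep := arg_step (nz _ hnx) (nz _ hnz) (nz _ hnx') (nz _ hnz') A1 A2 A3 A4
    have hyy : ‖y x' - y x‖ < δ := by
      rw [← dist_eq_norm]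
      refine hδ1' _ hz' _ hz ?_
      rw [dist_comm]
      linarith
    have hW := hδ' (y x) (y x') (hr₁' _ hz) (hr₂' _ hz) (hr₁' _ hz') (hr₂' _ hz') hyy
    have hy1 : h (y x) = zf x := hk2 _ (hLB hz.1) hz.2
    have hy2 : h (y x') = zf x' := hk2 _ (hLB hz'.1) hz'.2
    simp only [hy1, hy2] at hW
    have hyne : y x ≠ 0 := by rw [← norm_pos_iff]; exact hr₁.trans_le (hr₁' _ hz)
    have hyne' : y x' ≠ 0 := by rw [← norm_pos_iff]; exact hr₁.trans_le (hr₁' _ hz')
    obtain ⟨q, hq⟩ : ∃ q : ℤ, arg (y x' / y x) = arg (y x') - arg (y x) + 2 * Real.pi * q := by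
      have := arg_div_coe_angle hyne' hyne
      rw [← Real.Angle.coe_sub] at this
      obtain ⟨q, hq⟩ := Real.Angle.angle_eq_iff_two_pi_dvd_sub.1 this
      exact ⟨q, by linarith⟩
    refine ⟨q, ?_⟩
    simp only [ω, G]
    rw [hstep, hW, hq]
    ring
  -- the grid
  obtain ⟨n, hn2, hn⟩ : ∃ n : ℕ, 2 ≤ n ∧ s * (2 * Real.pi / n) < μ := by
    obtain ⟨n, hn⟩ := exists_nat_gt (s * (2 * Real.pi) / μ)
    refine ⟨n + 2, by omega, ?_⟩
    push_cast
    rw [mul_div_assoc', div_lt_iff₀ (by positivity)]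
    rw [div_lt_iff₀ hμpos] at hn
    nlinarith
  obtain ⟨m, hm1, hm⟩ : ∃ m : ℕ, 1 ≤ m ∧ 2 * R / m < μ := by
    obtain ⟨m, hm⟩ := exists_nat_gt (2 * R / μ)
    refine ⟨m + 1, by omega, ?_⟩
    push_cast
    rw [div_lt_iff₀ (by positivity)]
    rw [div_lt_iff₀ hμpos] at hm
    nlinarith
  have hm0 : (0 : ℝ) < m := by exact_mod_cast hm1
  have hn0 : n ≠ 0 := by omega
  let c : ℕ → ℕ → ℂ × ℝ := gp s R n m
  have hcL : ∀ i j, j ≤ m → c i j ∈ L := by
    intro i j hj
    refine ⟨gp_norm hs.le R n m i j, ?_⟩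
    have hj' : (j : ℝ) ≤ m := by exact_mod_cast hj
    have e1 : 2 * R * j / m ≤ 2 * R := by
      rw [div_le_iff₀ hm0]; nlinarith
    have e2 : 0 ≤ 2 * R * j / m := by positivity
    show |(-R + 2 * R * j / m : ℝ)| ≤ R
    rw [abs_le]
    constructor <;> linarith
  -- distances in a square
  have hvert : ∀ j : ℕ, |(-R + 2 * R * (j + 1 : ℕ) / m : ℝ) - (-R + 2 * R * j / m)| < μ := by
    intro j
    have : (-R + 2 * R * (j + 1 : ℕ) / m : ℝ) - (-R + 2 * R * j / m) = 2 * R / m := by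
      push_cast; ring
    rw [this, abs_of_pos (by positivity)]
    exact hm
  have hdist : ∀ i j i' j', (i' = i ∨ i' = i + 1) → (j' = j ∨ j' = j + 1) →
      dist (c i j) (c i' j') < μ := by
    intro i j i' j' hi hj
    rw [dist_comm, dist_eq_norm, Prod.norm_def, max_lt_iff]
    constructor
    · rcases hi with rfl | rfl
      · have : (c i' j').1 - (c i' j).1 = 0 := by simp [c, gp]
        rw [Prod.fst_sub, this]; simpa using hμpos
      · have : (c (i + 1) j').1 - (c i j).1 = (c (i + 1) j).1 - (c i j).1 := by simp [c, gp]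
        rw [Prod.fst_sub, this]
        exact (gp_dist_h s R hs hn0 m i j).trans_lt hn
    · rcases hj with rfl | rfl
      · have : (c i' j').2 - (c i j').2 = 0 := by simp [c, gp]
        rw [Prod.snd_sub, this]; simpa using hμpos
      · rw [Prod.snd_sub, Real.norm_eq_abs]
        exact hvert j
  have hdist' : ∀ i j i' j' i'' j'', (i' = i ∨ i' = i + 1) → (j' = j ∨ j' = j + 1) →
      (i'' = i ∨ i'' = i + 1) → (j'' = j ∨ j'' = j + 1) → dist (c i' j') (c i'' j'') < μ := by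
    intro i j i' j' i'' j'' h1 h2 h3 h4
    rw [dist_eq_norm, Prod.norm_def, max_lt_iff]
    have H1 := gp_dist_h s R hs hn0 m i j
    have e1 : ∀ a b b', (c a b).1 = (c a b').1 := fun a b b' => by simp [c, gp]
    have e2 : ∀ a a' b, (c a b).2 = (c a' b).2 := fun a a' b => by simp [c, gp]
    constructor
    · rw [Prod.fst_sub, e1 i' j' j, e1 i'' j'' j]
      rcases h1 with rfl | rfl <;> rcases h3 with rfl | rfl
      · simpa using hμpos
      · rw [norm_sub_rev]; exact H1.trans_lt hn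
      · exact H1.trans_lt hn
      · simpa using hμpos
    · rw [Prod.snd_sub, e2 i' i j', e2 i'' i j'', Real.norm_eq_abs]
      rcases h2 with rfl | rfl <;> rcases h4 with rfl | rfl
      · simpa using hμpos
      · rw [abs_sub_comm]; exact hvert _
      · exact hvert _
      · simpa using hμpos
  have hsq : ∀ i < n, ∀ j < m, ∃ q : ℤ,
      bet u G ω (c i j) (c (i + 1) j) + bet u G ω (c (i + 1) j) (c (i + 1) (j + 1))
        - bet u G ω (c i (j + 1)) (c (i + 1) (j + 1)) - bet u G ω (c i j) (c i (j + 1))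
        = (2 * Real.pi * d) * q := by
    intro i _ j hj
    apply square
    · have e1 : ∀ a b b', (c a b).1 = (c a b').1 := fun a b b' => by simp [c, gp]
      have hne : ∀ a b, (c a b).1 ≠ 0 := fun a b => by
        rw [← norm_pos_iff, gp_norm hs.le]; exact hs
      simp only [ω]
      rw [e1 i (j + 1) j, e1 (i + 1) (j + 1) j, div_self (hne _ _), div_self (hne _ _)]
      simp
    · intro x x' hxx hux hux' hmix
      -- all vertices of the square are close to each other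
      have hsqv : ∀ x, (x = c i j ∨ x = c (i + 1) j ∨ x = c (i + 1) (j + 1) ∨ x = c i (j + 1)) →
          ∃ i' j', (i' = i ∨ i' = i + 1) ∧ (j' = j ∨ j' = j + 1) ∧ x = c i' j' := by
        rintro x (rfl | rfl | rfl | rfl)
        · exact ⟨i, j, Or.inl rfl, Or.inl rfl, rfl⟩
        · exact ⟨i + 1, j, Or.inr rfl, Or.inl rfl, rfl⟩
        · exact ⟨i + 1, j + 1, Or.inr rfl, Or.inr rfl, rfl⟩
        · exact ⟨i, j + 1, Or.inl rfl, Or.inr rfl, rfl⟩
      obtain ⟨P, hP, huP⟩ : ∃ P, (P = c i j ∨ P = c (i + 1) j ∨ P = c (i + 1) (j + 1) ∨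
          P = c i (j + 1)) ∧ 0 < u P := by
        rcases hmix with h | h | h | h
        · exact ⟨_, Or.inl rfl, h⟩
        · exact ⟨_, Or.inr (Or.inl rfl), h⟩
        · exact ⟨_, Or.inr (Or.inr (Or.inl rfl)), h⟩
        · exact ⟨_, Or.inr (Or.inr (Or.inr rfl)), h⟩
      have hxv : (x = c i j ∨ x = c (i + 1) j ∨ x = c (i + 1) (j + 1) ∨ x = c i (j + 1)) ∧
          (x' = c i j ∨ x' = c (i + 1) j ∨ x' = c (i + 1) (j + 1) ∨ x' = c i (j + 1)) := by
        rcases hxx with ⟨a, b⟩ | ⟨a, b⟩ | ⟨a, b⟩ | ⟨a, b⟩ <;> simp [a, b]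
      obtain ⟨a1, b1, ha1, hb1, rfl⟩ := hsqv x hxv.1
      obtain ⟨a2, b2, ha2, hb2, rfl⟩ := hsqv x' hxv.2
      obtain ⟨a3, b3, ha3, hb3, rfl⟩ := hsqv P hP
      have hL : ∀ a b, (b = j ∨ b = j + 1) → c a b ∈ L := by
        rintro a b (rfl | rfl)
        · exact hcL _ _ hj.le
        · exact hcL _ _ hj
      have B1 : |u (c a1 b1)| < κ := by
        have := hμ1' _ (hL a3 b3 hb3) _ (hL a1 b1 hb1)
          ((hdist' i j _ _ _ _ ha3 hb3 ha1 hb1).trans_le (min_le_left _ _))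
        rw [Real.dist_eq, abs_lt] at this
        rw [abs_lt]
        constructor <;> linarith [this.1, this.2]
      have B2 : |u (c a2 b2)| < κ := by
        have := hμ1' _ (hL a3 b3 hb3) _ (hL a2 b2 hb2)
          ((hdist' i j _ _ _ _ ha3 hb3 ha2 hb2).trans_le (min_le_left _ _))
        rw [Real.dist_eq, abs_lt] at this
        rw [abs_lt]
        constructor <;> linarith [this.1, this.2]
      exact hrel _ (hL a1 b1 hb1) _ (hL a2 b2 hb2) B1 B2 (hdist' i j _ _ _ _ ha1 hb1 ha2 hb2)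
  have hper : ∀ j < m, bet u G ω (c n j) (c n (j + 1)) = bet u G ω (c 0 j) (c 0 (j + 1)) := by
    intro j _
    have e : ∀ j, c n j = c 0 j := fun j => gp_per s R hn0 m j
    rw [e, e]
  obtain ⟨q, hq⟩ := rows (2 * Real.pi * d) n (fun i j => bet u G ω (c i j) (c (i + 1) j))
    (fun i j => bet u G ω (c i j) (c i (j + 1))) m hsq hper
  -- bottom and top rows
  have hbot : ∀ i, u (c i 0) < 0 := by
    intro i
    have : c i 0 = ((c i 0).1, -R) := by simp [c, gp]
    rw [this]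
    exact hslow _ (gp_norm hs.le R n m i 0).le
  have htop : ∀ i, 0 < u (c i m) := by
    intro i
    have e : (-R + 2 * R * m / m : ℝ) = R := by field_simp; ring
    have : c i m = ((c i m).1, R) := by
      simp only [c, gp, e]
    rw [this]
    exact hshigh _ (gp_norm hs.le R n m i m).le
  have hb : ∑ i ∈ Finset.range n, bet u G ω (c i 0) (c (i + 1) 0) = 2 * Real.pi := by
    have : ∀ i ∈ Finset.range n, bet u G ω (c i 0) (c (i + 1) 0) = 2 * Real.pi / n := by
      intro i _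
      rw [bet_low u G ω (hbot i).le (hbot (i + 1)).le]
      exact gp_arg s R hs hn2 m i 0
    rw [Finset.sum_congr rfl this, Finset.sum_const, Finset.card_range, nsmul_eq_mul]
    have hn' : (n : ℝ) ≠ 0 := by exact_mod_cast hn0
    field_simp
  have ht : ∑ i ∈ Finset.range n, bet u G ω (c i m) (c (i + 1) m) = 0 :=
    Finset.sum_eq_zero fun i _ => bet_high u G ω (htop i) (htop (i + 1))
  rw [hb, ht, sub_zero] at hq
  have h1 : (d : ℝ) * q = 1 := by
    have : (2 * Real.pi) * ((d : ℝ) * q) = (2 * Real.pi) * 1 := by linarith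
    exact mul_left_cancel₀ (by positivity) this
  have h2 : d * q = 1 := by exact_mod_cast h1
  exact Int.isUnit_iff.1 (IsUnit.of_mul_eq_one _ h2)

end P073.W865
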