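import Vale.Agent.P073.W865.Wind

/-!
# P073, block PW: the row argument on a cylinder grid
-/

open Set Metric Topology Filter Complex

namespace P073.W865

theorem rows (D : ℝ) (n : ℕ) (bh bv : ℕ → ℕ → ℝ) (m : ℕ)
    (hsq : ∀ i < n, ∀ j < m, ∃ k : ℤ, bh i j + bv (i + 1) j - bh i (j + 1) - bv i j = D * k)
    (hper : ∀ j < m, bv n j = bv 0 j) :
    ∃ k : ℤ, (∑ i ∈ Finset.range n, bh i 0) - ∑ i ∈ Finset.range n, bh i m = D * k := by
  induction m with
  | zero => exact ⟨0, by simp⟩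
  | succ m ih =>
    obtain ⟨k, hk⟩ := ih (fun i hi j hj => hsq i hi j (hj.trans (Nat.lt_succ_self m)))
      (fun j hj => hper j (hj.trans (Nat.lt_succ_self m)))
    choose! q hq using fun i hi => hsq i hi m (Nat.lt_succ_self m)
    refine ⟨k + ∑ i ∈ Finset.range n, q i, ?_⟩
    have h1 : ∑ i ∈ Finset.range n, (bv (i + 1) m - bv i m) = 0 := by
      rw [Finset.sum_range_sub (fun i => bv i m), hper m (Nat.lt_succ_self m), sub_self]
    have h2 : ∑ i ∈ Finset.range n, (bh i m + bv (i + 1) m - bh i (m + 1) - bv i m) =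
        D * ∑ i ∈ Finset.range n, (q i : ℝ) := by
      rw [Finset.mul_sum]
      exact Finset.sum_congr rfl fun i hi => hq i (Finset.mem_range.1 hi)
    have h3 : ∑ i ∈ Finset.range n, (bh i m + bv (i + 1) m - bh i (m + 1) - bv i m) =
        ∑ i ∈ Finset.range n, bh i m - ∑ i ∈ Finset.range n, bh i (m + 1) +
          ∑ i ∈ Finset.range n, (bv (i + 1) m - bv i m) := by
      rw [← Finset.sum_sub_distrib, ← Finset.sum_add_distrib]
      exact Finset.sum_congr rfl fun i _ => by ring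
    push_cast
    rw [h1, add_zero] at h3
    rw [h3] at h2
    linarith

section cochain

variable {X : Type*} (u G : X → ℝ) (ω : X → X → ℝ) (D : ℝ)

open Classical in
/-- the truncated potential -/
noncomputable def Gt (x : X) : ℝ := if u x ≤ 0 then G x else 0

open Classical in
/-- the modified cocycle: `ω` below, zero above -/
noncomputable def bet (x x' : X) : ℝ :=
  if u x ≤ 0 ∧ u x' ≤ 0 then ω x x' else Gt u G x' - Gt u G x

theorem bet_low {x x' : X} (h : u x ≤ 0) (h' : u x' ≤ 0) : bet u G ω x x' = ω x x' := by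
  simp [bet, h, h']

theorem bet_high {x x' : X} (h : 0 < u x) (h' : 0 < u x') : bet u G ω x x' = 0 := by
  simp [bet, Gt, not_le.2 h, not_le.2 h']

theorem square (x00 x10 x11 x01 : X)
    (h0 : ω x00 x10 + ω x10 x11 - ω x01 x11 - ω x00 x01 = 0)
    (hI : ∀ x x', ((x = x00 ∧ x' = x10) ∨ (x = x10 ∧ x' = x11) ∨ (x = x01 ∧ x' = x11) ∨
        (x = x00 ∧ x' = x01)) → u x ≤ 0 → u x' ≤ 0 →
        (0 < u x00 ∨ 0 < u x10 ∨ 0 < u x11 ∨ 0 < u x01) →
        ∃ k : ℤ, ω x x' = G x' - G x + D * k) :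
    ∃ k : ℤ, bet u G ω x00 x10 + bet u G ω x10 x11 - bet u G ω x01 x11 - bet u G ω x00 x01
      = D * k := by
  by_cases hall : u x00 ≤ 0 ∧ u x10 ≤ 0 ∧ u x11 ≤ 0 ∧ u x01 ≤ 0
  · obtain ⟨a, b, c, d⟩ := hall
    refine ⟨0, ?_⟩
    rw [bet_low u G ω a b, bet_low u G ω b c, bet_low u G ω d c, bet_low u G ω a d, h0]
    simp
  · have hmix : 0 < u x00 ∨ 0 < u x10 ∨ 0 < u x11 ∨ 0 < u x01 := by
      by_contra hc
      push Not at hc
      exact hall hc
    have key : ∀ x x', ((x = x00 ∧ x' = x10) ∨ (x = x10 ∧ x' = x11) ∨ (x = x01 ∧ x' = x11) ∨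
        (x = x00 ∧ x' = x01)) → ∃ k : ℤ, bet u G ω x x' = Gt u G x' - Gt u G x + D * k := by
      intro x x' hx
      by_cases hb : u x ≤ 0 ∧ u x' ≤ 0
      · obtain ⟨k, hk⟩ := hI x x' hx hb.1 hb.2 hmix
        refine ⟨k, ?_⟩
        rw [bet_low u G ω hb.1 hb.2, hk]
        simp [Gt, hb.1, hb.2]
      · exact ⟨0, by simp [bet, hb]⟩
    obtain ⟨k1, h1⟩ := key x00 x10 (by simp)
    obtain ⟨k2, h2⟩ := key x10 x11 (by simp)
    obtain ⟨k3, h3⟩ := key x01 x11 (by simp)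
    obtain ⟨k4, h4⟩ := key x00 x01 (by simp)
    refine ⟨k1 + k2 - k3 - k4, ?_⟩
    rw [h1, h2, h3, h4]
    push_cast
    ring

end cochain

end P073.W865
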