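import Mathlib

/-!
# P073, block PW: winding numbers of maps of the punctured disc

For a continuous map `p` of the punctured unit disc into `ℂ \ {0}` there are an integer `d` and a
function `g` with `arg (p y' / p y) = d * arg (y' / y) + g y' - g y` for near points `y, y'`.
-/

open Set Metric Topology Filter Complex

namespace P073.W865

/-- Two congruent reals at distance less than `2π` are equal. -/
theorem eq_of_angle {a b : ℝ} (h : (a : Real.Angle) = (b : Real.Angle))
    (hab : |a - b| < 2 * Real.pi) : a = b := by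
  obtain ⟨k, hk⟩ := Real.Angle.angle_eq_iff_two_pi_dvd_sub.1 h
  have hpi := Real.pi_pos
  have h1 : |(k : ℝ)| < 1 := by
    rw [hk, abs_mul, abs_of_pos (by positivity : (0:ℝ) < 2 * Real.pi)] at hab
    by_contra hc
    push Not at hc
    nlinarith
  have h2 : k = 0 := by
    have : |k| < 1 := by exact_mod_cast h1
    exact Int.abs_lt_one_iff.1 this
  subst h2
  simp at hk
  linarith

/-- Small quotient has small argument: `|arg (b / a)| < π / 3` if `‖b - a‖ < ‖a‖ / 2`. -/
theorem abs_arg_div_lt {a b : ℂ} (ha : a ≠ 0) (h : ‖b - a‖ < ‖a‖ / 2) :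
    |arg (b / a)| < Real.pi / 3 := by
  have hna : 0 < ‖a‖ := norm_pos_iff.2 ha
  have h1 : ‖b / a - 1‖ < 1 / 2 := by
    have : b / a - 1 = (b - a) / a := by field_simp
    rw [this, norm_div, div_lt_iff₀ hna]
    linarith
  set z := b / a with hz
  have hre : 1 / 2 < z.re := by
    have := abs_re_le_norm (z - 1)
    rw [Complex.sub_re, Complex.one_re] at this
    have := abs_lt.1 (lt_of_le_of_lt this h1)
    linarith [this.1]
  have him : |z.im| < 1 / 2 := by
    have := abs_im_le_norm (z - 1)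
    rw [Complex.sub_im, Complex.one_im, sub_zero] at this
    exact lt_of_le_of_lt this h1
  have hpi := Real.pi_pos
  have h3 : |arg z| < Real.pi / 2 := abs_arg_lt_pi_div_two_iff.2 (Or.inl (by linarith))
  -- tan (arg z) = im / re
  have h4 : Real.tan (arg z) = z.im / z.re := tan_arg z
  have h5 : |Real.tan (arg z)| < 1 := by
    rw [h4, abs_div, abs_of_pos (by linarith : 0 < z.re), div_lt_one (by linarith)]
    linarith
  have h6 : |arg z| < Real.pi / 4 := by
    rw [abs_lt] at h3 h5 ⊢
    constructor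
    · by_contra hc
      push Not at hc
      have := Real.tan_lt_tan_of_lt_of_lt_pi_div_two (x := arg z) (y := - (Real.pi / 4))
      rcases hc.lt_or_eq with h | h
      · have h7 := this (by linarith [h3.1]) (by linarith) h
        rw [Real.tan_neg, Real.tan_pi_div_four] at h7
        linarith [h5.1]
      · rw [h, Real.tan_neg, Real.tan_pi_div_four] at h5
        linarith [h5.1]
    · by_contra hc
      push Not at hc
      rcases hc.lt_or_eq with h | h
      · have h7 := Real.tan_lt_tan_of_lt_of_lt_pi_div_two (x := Real.pi / 4) (y := arg z)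
          (by linarith) h3.2 h
        rw [Real.tan_pi_div_four] at h7
        linarith [h5.2]
      · rw [← h, Real.tan_pi_div_four] at h5
        linarith [h5.2]
  linarith

/-- Cocycle identity for small steps. -/
theorem arg_step {a b a' b' : ℂ} (ha : a ≠ 0) (hb : b ≠ 0) (ha' : a' ≠ 0) (hb' : b' ≠ 0)
    (h1 : |arg (a' / a)| < Real.pi / 3) (h2 : |arg (b' / b)| < Real.pi / 3)
    (h3 : |arg (a' / b')| < Real.pi / 3) (h4 : |arg (a / b)| < Real.pi / 3) :
    arg (a' / a) = arg (b' / b) + arg (a' / b') - arg (a / b) := by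
  have hpi := Real.pi_pos
  apply eq_of_angle
  · rw [Real.Angle.coe_sub, Real.Angle.coe_add, arg_div_coe_angle ha' ha, arg_div_coe_angle hb' hb, arg_div_coe_angle ha' hb',
      arg_div_coe_angle ha hb]
    abel
  · rw [abs_lt] at *
    constructor <;> linarith [h1.1, h1.2, h2.1, h2.2, h3.1, h3.2, h4.1, h4.2]

/-- The left half plane is simply connected. -/
theorem simplyConnected_left : IsSimplyConnected {w : ℂ | w.re < 0} := by
  have hc : Convex ℝ {w : ℂ | w.re < 0} := convex_halfSpace_re_lt 0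
  have : ContractibleSpace {w : ℂ | w.re < 0} := hc.contractibleSpace ⟨-1, by simp⟩
  exact SimplyConnectedSpace.ofContractible _

theorem exp_mem_punctured {w : ℂ} (hw : w.re < 0) : 0 < ‖exp w‖ ∧ ‖exp w‖ < 1 := by
  rw [norm_exp]
  exact ⟨Real.exp_pos _, by simpa using hw⟩

/-- Logarithm of a nonvanishing continuous function on the punctured disc, on the universal
cover. -/
theorem exists_log {p : ℂ → ℂ} (hp : ContinuousOn p {y | 0 < ‖y‖ ∧ ‖y‖ < 1})
    (h0 : ∀ y, 0 < ‖y‖ → ‖y‖ < 1 → p y ≠ 0) :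
    ∃ G : ℂ → ℂ, ContinuousOn G {w | w.re < 0} ∧ (∀ w : ℂ, w.re < 0 → exp (G w) = p (exp w)) ∧
      ∃ d : ℤ, ∀ w : ℂ, w.re < 0 → ∀ k : ℤ,
        G (w + k * (2 * Real.pi * I)) = G w + d * (k * (2 * Real.pi * I)) := by
  have hopen : IsOpen {w : ℂ | w.re < 0} := isOpen_lt continuous_re continuous_const
  obtain ⟨G, hG, hexp⟩ := exists_continuousOn_eqOn_exp_comp simplyConnected_left hopen
    (g := fun w => p (exp w))
    (hp.comp Complex.continuous_exp.continuousOn (fun w hw => exp_mem_punctured hw))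
    (by
      rintro ⟨w, hw, hw0⟩
      exact h0 _ (exp_mem_punctured hw).1 (exp_mem_punctured hw).2 hw0)
  refine ⟨G, hG, fun w hw => hexp hw, ?_⟩
  have hpi : (2 * Real.pi * I : ℂ) ≠ 0 := Complex.two_pi_I_ne_zero
  -- the jump
  have hre : ∀ w : ℂ, (w + 2 * Real.pi * I).re = w.re := fun w => by simp
  have key : ∀ w : ℂ, w.re < 0 → ∃ n : ℤ, G (w + 2 * Real.pi * I) - G w = n * (2 * Real.pi * I) := by
    intro w hw
    have h1 : exp (G (w + 2 * Real.pi * I)) = exp (G w) := by
      have e1 := hexp (show w + 2 * Real.pi * I ∈ {w : ℂ | w.re < 0} by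
        simpa only [mem_ofPred_eq, hre] using hw)
      have e2 := hexp (show w ∈ {w : ℂ | w.re < 0} from hw)
      simp only [Function.comp_apply] at e1 e2
      rw [e1, e2, exp_add, exp_two_pi_mul_I, mul_one]
    obtain ⟨n, hn⟩ := exp_eq_exp_iff_exists_int.1 h1
    exact ⟨n, by rw [hn]; ring⟩
  have hpre : IsPreconnected {w : ℂ | w.re < 0} := (convex_halfSpace_re_lt 0).isPreconnected
  let J : ℂ → ℝ := fun w => ((G (w + 2 * Real.pi * I) - G w) / (2 * Real.pi * I)).re
  have hJc : ContinuousOn J {w : ℂ | w.re < 0} := by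
    refine continuous_re.comp_continuousOn (ContinuousOn.div_const (ContinuousOn.sub ?_ hG) _)
    refine hG.comp (by fun_prop) (fun w hw => ?_)
    simpa only [mem_ofPred_eq, hre] using hw
  have hJ : MapsTo J {w : ℂ | w.re < 0} (range ((↑) : ℤ → ℝ)) := by
    intro w hw
    obtain ⟨n, hn⟩ := key w hw
    refine ⟨n, ?_⟩
    simp only [J]
    rw [hn, mul_div_cancel_right₀ _ hpi, intCast_re]
  have hdisc : IsDiscrete (range ((↑) : ℤ → ℝ)) :=
    Int.isClosedEmbedding_coe_real.isInducing.isDiscrete_range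
  have hm1 : (-1 : ℂ) ∈ {w : ℂ | w.re < 0} := by simp
  obtain ⟨d, hd⟩ := key (-1) hm1
  have hJd : ∀ w : ℂ, w.re < 0 → G (w + 2 * Real.pi * I) - G w = d * (2 * Real.pi * I) := by
    intro w hw
    have h2 := hpre.constant_of_mapsTo hdisc hJc hJ hw hm1
    obtain ⟨n, hn⟩ := key w hw
    simp only [J] at h2
    rw [hn, hd, mul_div_cancel_right₀ _ hpi, mul_div_cancel_right₀ _ hpi, intCast_re, intCast_re]
      at h2
    have : n = d := by exact_mod_cast h2
    rw [hn, this]
  refine ⟨d, fun w hw k => ?_⟩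
  induction k using Int.induction_on with
  | zero => simp
  | succ n ih =>
    have h3 := hJd (w + n * (2 * Real.pi * I)) (by simpa using hw)
    push_cast at ih ⊢
    have h4 : w + (n + 1) * (2 * Real.pi * I) = w + n * (2 * Real.pi * I) + 2 * Real.pi * I := by
      ring
    rw [h4, sub_eq_iff_eq_add.1 h3, ih]
    ring
  | pred n ih =>
    have h3 := hJd (w + (-n - 1) * (2 * Real.pi * I)) (by simpa using hw)
    push_cast at ih ⊢
    have h4 : w + (-n - 1) * (2 * Real.pi * I) + 2 * Real.pi * I = w + -n * (2 * Real.pi * I) := by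
      ring
    rw [h4, ih] at h3
    have h5 := sub_eq_iff_eq_add.1 h3
    have h6 : G (w + (-n - 1) * (2 * Real.pi * I)) =
        G w + d * (-n * (2 * Real.pi * I)) - d * (2 * Real.pi * I) := by
      rw [h5]; ring
    rw [h6]
    ring

/-- The winding cocycle of a map of the punctured disc: `arg (p y' / p y)` is `d` times the
increment of the argument of `y` plus a coboundary, for near points. -/
def WindsTo (p : ℂ → ℂ) (d : ℤ) (g : ℂ → ℝ) : Prop :=
  ∀ r₁ > (0:ℝ), ∀ r₂ < (1:ℝ), ∃ δ > (0:ℝ), ∀ y y' : ℂ, r₁ ≤ ‖y‖ → ‖y‖ ≤ r₂ → r₁ ≤ ‖y'‖ →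
    ‖y'‖ ≤ r₂ → ‖y' - y‖ < δ → arg (p y' / p y) = d * arg (y' / y) + g y' - g y

theorem windsTo_of_log {p G : ℂ → ℂ} {d : ℤ} (hG : ContinuousOn G {w | w.re < 0})
    (hexp : ∀ w : ℂ, w.re < 0 → exp (G w) = p (exp w))
    (hd : ∀ w : ℂ, w.re < 0 → ∀ k : ℤ,
        G (w + k * (2 * Real.pi * I)) = G w + d * (k * (2 * Real.pi * I))) :
    WindsTo p d (fun y => (G (log y)).im - d * arg y) := by
  intro r₁ h1 r₂ h2
  have hpi := Real.pi_pos
  have hpi4 := Real.pi_le_four
  rcases le_or_gt r₂ 0 with hr | hr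
  · exact ⟨1, one_pos, fun y y' a b => absurd (h1.trans_le (a.trans (b.trans hr))) (lt_irrefl _)⟩
  -- uniform continuity of `G` on a compact rectangle
  let K : Set ℂ := Icc (Real.log r₁) (Real.log r₂) ×ℂ Icc (-6) 6
  have hKc : IsCompact K := isCompact_Icc.reProdIm isCompact_Icc
  have hKs : K ⊆ {w : ℂ | w.re < 0} := by
    intro w hw
    exact lt_of_le_of_lt hw.1.2 (Real.log_neg hr h2)
  have huc := hKc.uniformContinuousOn_of_continuous (hG.mono hKs)
  rw [Metric.uniformContinuousOn_iff] at huc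
  obtain ⟨η, hη, hη'⟩ := huc 1 one_pos
  -- continuity of the logarithm at `1`
  have hlog : ContinuousAt log (1 : ℂ) := continuousAt_clog (by simp)
  rw [Metric.continuousAt_iff] at hlog
  obtain ⟨δ', hδ', hlog'⟩ := hlog η hη
  refine ⟨min (r₁ * δ') (r₁ / 2), lt_min (by positivity) (by positivity), ?_⟩
  intro y y' hy1 hy2 hy'1 hy'2 hyy
  have hy0 : y ≠ 0 := norm_pos_iff.1 (h1.trans_le hy1)
  have hy'0 : y' ≠ 0 := norm_pos_iff.1 (h1.trans_le hy'1)
  have hq0 : y' / y ≠ 0 := div_ne_zero hy'0 hy0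
  have hny : 0 < ‖y‖ := norm_pos_iff.2 hy0
  have hny' : 0 < ‖y'‖ := norm_pos_iff.2 hy'0
  have hz : ‖log (y' / y)‖ < η := by
    have h3 : dist (y' / y) 1 < δ' := by
      rw [dist_eq_norm]
      have : y' / y - 1 = (y' - y) / y := by field_simp
      rw [this, norm_div, div_lt_iff₀ hny]
      have := hyy.trans_le (min_le_left _ _)
      nlinarith
    simpa [dist_eq_norm] using hlog' h3
  have harg : |arg (y' / y)| < Real.pi / 3 := by
    apply abs_arg_div_lt hy0
    have := hyy.trans_le (min_le_right _ _)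
    linarith
  set w : ℂ := log y with hw
  set w'' : ℂ := w + log (y' / y) with hw''
  have hwre : w.re = Real.log ‖y‖ := log_re y
  have hw're : (log y').re = Real.log ‖y'‖ := log_re y'
  have hwim : w.im = arg y := log_im y
  have hw''re : w''.re = Real.log ‖y'‖ := by
    rw [hw'', add_re, hwre, log_re, norm_div, Real.log_div hny'.ne' hny.ne']
    ring
  have hw''im : w''.im = arg y + arg (y' / y) := by
    rw [hw'', add_im, hwim, log_im]
  have hexpw : exp w = y := exp_log hy0
  have hexpw'' : exp w'' = y' := by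
    rw [hw'', exp_add, hexpw, exp_log hq0]
    field_simp
  have hyarg := abs_arg_le_pi y
  rw [abs_le] at hyarg
  have harg' := abs_lt.1 harg
  have hwK : w ∈ K := by
    refine ⟨⟨?_, ?_⟩, ⟨?_, ?_⟩⟩
    · rw [hwre]; exact Real.log_le_log h1 hy1
    · rw [hwre]; exact Real.log_le_log hny hy2
    · rw [hwim]; linarith [hyarg.1]
    · rw [hwim]; linarith [hyarg.2]
  have hw''K : w'' ∈ K := by
    refine ⟨⟨?_, ?_⟩, ⟨?_, ?_⟩⟩
    · rw [hw''re]; exact Real.log_le_log h1 hy'1
    · rw [hw''re]; exact Real.log_le_log hny' hy'2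
    · rw [hw''im]; linarith [hyarg.1, harg'.1]
    · rw [hw''im]; linarith [hyarg.2, harg'.2]
  have hGd : ‖G w'' - G w‖ < 1 := by
    have := hη' w'' hw''K w hwK (by rw [dist_eq_norm, hw'', add_sub_cancel_left]; exact hz)
    rwa [dist_eq_norm] at this
  have him : |(G w'' - G w).im| < 1 := lt_of_le_of_lt (abs_im_le_norm _) hGd
  rw [abs_lt] at him
  have hexpG : exp (G w'' - G w) = p y' / p y := by
    rw [exp_sub, hexp _ (hKs hw''K), hexp _ (hKs hwK), hexpw, hexpw'']
  have hpi3 := Real.pi_gt_three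
  have hA : arg (p y' / p y) = (G w'' - G w).im := by
    rw [← hexpG, ← log_im, log_exp (by linarith [him.1]) (by linarith [him.2])]
  obtain ⟨k, hk⟩ := exp_eq_exp_iff_exists_int.1 (hexpw''.trans (exp_log hy'0).symm)
  have hlogy're : (log y').re < 0 := by
    rw [hw're]
    exact lt_of_le_of_lt (Real.log_le_log hny' hy'2) (Real.log_neg hr h2)
  have hB : G w'' = G (log y') + d * (k * (2 * Real.pi * I)) := by
    rw [hk]
    exact hd _ hlogy're k
  have hC : (G w'').im = (G (log y')).im + d * (k * (2 * Real.pi)) := by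
    rw [hB]
    simp
  have hD : arg y + arg (y' / y) = arg y' + k * (2 * Real.pi) := by
    rw [← hw''im, hk]
    simp [log_im]
  have hD' : arg (y' / y) = arg y' + k * (2 * Real.pi) - arg y := by linarith
  rw [hA, sub_im, hC, hD']
  ring

theorem exists_windsTo {p : ℂ → ℂ} (hp : ContinuousOn p {y | 0 < ‖y‖ ∧ ‖y‖ < 1})
    (h0 : ∀ y, 0 < ‖y‖ → ‖y‖ < 1 → p y ≠ 0) : ∃ d g, WindsTo p d g := by
  obtain ⟨G, hG, hexp, d, hd⟩ := exists_log hp h0
  exact ⟨d, _, windsTo_of_log hG hexp hd⟩

end P073.W865
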